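import Vale.Agent.P033.Final

/-!
# Circulant Hadamard matrices: almost all orders are excluded
-/

open Filter Topology

/-- The set of `u` for which a real circulant Hadamard matrix of order `4u²` exists has natural
density zero, and the number of orders `n ≤ N` of real circulant Hadamard matrices is `o(√N)`. -/
theorem Vale.Agent.Results.P033.CirculantDensityZero.result :
    Tendsto (fun x : ℕ =>
      (Nat.card {u : ℕ // 1 ≤ u ∧ u ≤ x ∧ P033.HasCirculantHadamard (4 * u ^ 2)} : ℝ) / x)
      atTop (𝓝 0) ∧
    Tendsto (fun N : ℕ =>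
      (Nat.card {n : ℕ // n ≤ N ∧ P033.HasCirculantHadamard n} : ℝ) / Real.sqrt N)
      atTop (𝓝 0) :=
  ⟨P033.density_u, P033.main⟩
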