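import Vale.Agent.P033B.Final2
import Vale.Agent.P033B.Crit2

/-!
# Circulant Hadamard matrices: a power saving for the number of possible orders,
and a new nonexistence criterion
-/

/-- (1) For all large `N`, at most `N ^ (1/2 - 1/2000)` orders `n ≤ N` have a real circulant
Hadamard matrix.  (2) For all large `x`, at most `x ^ (1 - 1/1000)` integers `u ≤ x` have a real
circulant Hadamard matrix of order `4 u ^ 2`.  (3) A nonexistence criterion for single orders. -/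
theorem Vale.Agent.Results.P033.CirculantPowerSaving.result :
    (∃ N₀ : ℕ, ∀ N : ℕ, N₀ ≤ N →
      (Nat.card {n : ℕ // n ≤ N ∧ P033.HasCirculantHadamard n} : ℝ) ≤
        (N : ℝ) ^ (1 / 2 - 1 / 2000 : ℝ)) ∧
    (∃ x₀ : ℕ, ∀ x : ℕ, x₀ ≤ x →
      (Nat.card {u : ℕ // 1 ≤ u ∧ u ≤ x ∧ P033.HasCirculantHadamard (4 * u ^ 2)} : ℝ) ≤
        (x : ℝ) ^ (1 - 1 / 1000 : ℝ)) ∧
    (∀ u N R D : ℕ, 0 < u → 1 < N → N ∣ 4 * u ^ 2 → D ∣ u → Squarefree R → Odd R →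
      R ^ 2 ∣ N →
      (∀ P ∈ R.primeFactors, ∀ r ∈ N.primeFactors, r ≠ P → ¬ P ∣ r - 1) →
      (∀ P ∈ R.primeFactors, ∀ q ∈ D.primeFactors, q ≠ P → q ^ (P - 1) % P ^ 2 ≠ 1) →
      P033.HasCirculantHadamard (4 * u ^ 2) →
      D ^ 4 * R * N.totient ≤ 4 ^ (R.primeFactors.card + 1) * u ^ 6) := by
  refine ⟨P033.main2, ?_, ?_⟩
  · obtain ⟨x₀, hx₀⟩ := P033.power
    refine ⟨x₀, fun x hx => ?_⟩
    refine le_trans ?_ (hx₀ x hx)
    have hTf : {u : ℕ | u ∈ Finset.Icc 1 x ∧ P033.HasPerf (4 * u ^ 2)}.Finite :=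
      (Finset.finite_toSet (Finset.Icc 1 x)).subset fun u hu => hu.1
    have h := Nat.card_mono hTf
      (s := {u : ℕ | 1 ≤ u ∧ u ≤ x ∧ P033.HasCirculantHadamard (4 * u ^ 2)})
      (fun u hu => ⟨Finset.mem_Icc.2 ⟨hu.1, hu.2.1⟩, P033.hasPerf_of_circ hu.2.2⟩)
    exact_mod_cast h
  · intro u N R D hu hN1 hNn hDu hR hRodd hRN h1 h2 hc
    exact P033.criterionD hu hN1 hNn hDu hR hRodd hRN h1 h2 (P033.hasPerf_of_circ hc)
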